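import Vale.Agent.P167.H638.LDefs
import Mathlib.Analysis.SpecialFunctions.SmoothTransition

/-!
# P167, block LAYER: cut-off along the lines of the pinwheel

`s_strip : H638.L.S_strip`.
-/

namespace Vale.Agent.P167.H192.LY

open Finset Filter Topology MeasureTheory
open Vale.Agent.P167.H825 (dv dvg domP enl pdir Box epos)
open Vale.Agent.P167.H327 (fl fl_ne fl_le dv_fl cm_abs_le exists_bd cont_dvg hcs_dvg)
open Vale.Agent.P167.H638.L (cel S_strip)
open scoped ContDiff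

/-! ### The cut-off function -/

/-- `0` on `[-1, 1]`, `1` off `[-2, 2]`. -/
noncomputable def cu (t : ℝ) : ℝ := Real.smoothTransition ((t ^ 2 - 1) / 3)

theorem cu_nonneg (t : ℝ) : 0 ≤ cu t := Real.smoothTransition.nonneg _

theorem cu_le_one (t : ℝ) : cu t ≤ 1 := Real.smoothTransition.le_one _

theorem cu_zero {t : ℝ} (h : |t| ≤ 1) : cu t = 0 := by
  refine Real.smoothTransition.zero_of_nonpos ?_
  have : t ^ 2 ≤ 1 := by rw [← sq_abs]; nlinarith [abs_nonneg t]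
  linarith

theorem cu_one {t : ℝ} (h : 2 ≤ |t|) : cu t = 1 := by
  refine Real.smoothTransition.one_of_one_le ?_
  have : 4 ≤ t ^ 2 := by rw [← sq_abs]; nlinarith [abs_nonneg t]
  linarith

theorem contDiff_cu : ContDiff ℝ ∞ cu := by
  unfold cu
  refine Real.smoothTransition.contDiff.comp ?_
  fun_prop

theorem cu_deriv_bd : ∃ C : ℝ, 0 ≤ C ∧ ∀ t, |deriv cu t| ≤ C := by
  have h1 : HasCompactSupport fun t => 1 - cu t := by
    refine HasCompactSupport.intro (isCompact_Icc (a := (-2 : ℝ)) (b := 2)) fun t ht => ?_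
    rw [cu_one, sub_self]
    by_contra hc
    push Not at hc
    exact ht ⟨by linarith [neg_abs_le t], by linarith [le_abs_self t]⟩
  have h2 : ContDiff ℝ ∞ fun t => 1 - cu t := contDiff_const.sub contDiff_cu
  have h3 := (HasCompactSupport.deriv h1)
  have h4 : Continuous (deriv fun t => 1 - cu t) := h2.continuous_deriv (by simp)
  obtain ⟨C, hC⟩ := h4.bounded_above_of_compact_support h3
  refine ⟨max C 0, le_max_right _ _, fun t => ?_⟩
  have h5 := hC t
  rw [deriv_const_sub, Real.norm_eq_abs, abs_neg] at h5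
  exact h5.trans (le_max_left _ _)

/-- The cut-off near two points. -/
noncomputable def c2 (w a a' t : ℝ) : ℝ := cu ((t - a) / w) * cu ((t - a') / w)

theorem c2_nonneg (w a a' t : ℝ) : 0 ≤ c2 w a a' t := mul_nonneg (cu_nonneg _) (cu_nonneg _)

theorem c2_le_one (w a a' t : ℝ) : c2 w a a' t ≤ 1 := mul_le_one₀ (cu_le_one _) (cu_nonneg _) (cu_le_one _)

theorem c2_zero {w a a' t : ℝ} (hw : 0 < w) (h : |t - a| ≤ w ∨ |t - a'| ≤ w) : c2 w a a' t = 0 := by
  unfold c2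
  rcases h with h | h
  · rw [cu_zero, zero_mul]
    rw [abs_div, abs_of_pos hw, div_le_one hw]
    exact h
  · rw [cu_zero (t := (t - a') / w), mul_zero]
    rw [abs_div, abs_of_pos hw, div_le_one hw]
    exact h

theorem c2_one {w a a' t : ℝ} (hw : 0 < w) (h : 2 * w ≤ |t - a|) (h' : 2 * w ≤ |t - a'|) :
    c2 w a a' t = 1 := by
  unfold c2
  rw [cu_one, cu_one, one_mul]
  · rw [abs_div, abs_of_pos hw, le_div_iff₀ hw]
    exact h'
  · rw [abs_div, abs_of_pos hw, le_div_iff₀ hw]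
    exact h

theorem contDiff_c2 (w a a' : ℝ) : ContDiff ℝ ∞ (c2 w a a') := by
  unfold c2
  exact (contDiff_cu.comp (by fun_prop)).mul (contDiff_cu.comp (by fun_prop))

theorem c2_deriv {C : ℝ} (hC : ∀ t, |deriv cu t| ≤ C) {w a a' : ℝ} (hw : 0 < w) (t : ℝ) :
    |deriv (c2 w a a') t| ≤ 2 * C / w := by
  have hd : ∀ a : ℝ, HasDerivAt (fun t => cu ((t - a) / w)) (deriv cu ((t - a) / w) * (1 / w)) t := by
    intro a
    have h1 : HasDerivAt (fun t : ℝ => (t - a) / w) (1 / w) t :=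
      ((hasDerivAt_id t).sub_const a).div_const w
    have h2 : HasDerivAt cu (deriv cu ((t - a) / w)) ((t - a) / w) :=
      ((contDiff_cu.differentiable (by simp)) _).hasDerivAt
    exact HasDerivAt.comp (h₂ := cu) (h := fun t : ℝ => (t - a) / w) t h2 h1
  have h3 : HasDerivAt (c2 w a a') (deriv cu ((t - a) / w) * (1 / w) * cu ((t - a') / w) +
      cu ((t - a) / w) * (deriv cu ((t - a') / w) * (1 / w))) t := (hd a).mul (hd a')
  rw [h3.deriv]
  have hw' : 0 ≤ 1 / w := by positivity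
  have key : ∀ x y : ℝ, |deriv cu x * (1 / w) * cu y| ≤ C * (1 / w) := by
    intro x y
    rw [abs_mul, abs_mul, abs_of_nonneg hw', abs_of_nonneg (cu_nonneg _)]
    calc |deriv cu x| * (1 / w) * cu y ≤ |deriv cu x| * (1 / w) * 1 :=
          mul_le_mul_of_nonneg_left (cu_le_one _) (by positivity)
      _ ≤ C * (1 / w) := by rw [mul_one]; exact mul_le_mul_of_nonneg_right (hC _) hw'
  refine (abs_add_le _ _).trans ?_
  have h4 := key ((t - a) / w) ((t - a') / w)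
  have h5 := key ((t - a') / w) ((t - a) / w)
  rw [mul_comm (deriv cu ((t - a') / w) * (1 / w))] at h5
  calc _ ≤ C * (1 / w) + C * (1 / w) := add_le_add h4 h5
    _ = 2 * C / w := by ring

/-- The cut-off `χ`. -/
noncomputable def ch (b : Box) (w : ℝ) (x : ℝ × ℝ) : ℝ := c2 w b.xl b.xr x.1 * c2 w b.yb b.yt x.2

theorem contDiff_ch (b : Box) (w : ℝ) : ContDiff ℝ ∞ (ch b w) := by
  unfold ch
  exact ((contDiff_c2 w b.xl b.xr).comp contDiff_fst).mul ((contDiff_c2 w b.yb b.yt).comp contDiff_snd)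

theorem ch_fderiv (b : Box) (w : ℝ) (x : ℝ × ℝ) :
    fderiv ℝ (ch b w) x (1, 0) = deriv (c2 w b.xl b.xr) x.1 * c2 w b.yb b.yt x.2 ∧
    fderiv ℝ (ch b w) x (0, 1) = c2 w b.xl b.xr x.1 * deriv (c2 w b.yb b.yt) x.2 := by
  have h1 : HasDerivAt (c2 w b.xl b.xr) (deriv (c2 w b.xl b.xr) x.1) x.1 :=
    ((contDiff_c2 w b.xl b.xr).differentiable (by simp) _).hasDerivAt
  have h2 : HasDerivAt (c2 w b.yb b.yt) (deriv (c2 w b.yb b.yt) x.2) x.2 :=
    ((contDiff_c2 w b.yb b.yt).differentiable (by simp) _).hasDerivAt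
  have h3 : HasFDerivAt (fun x : ℝ × ℝ => c2 w b.xl b.xr x.1)
      (deriv (c2 w b.xl b.xr) x.1 • ContinuousLinearMap.fst ℝ ℝ ℝ) x :=
    h1.comp_hasFDerivAt x hasFDerivAt_fst
  have h4 : HasFDerivAt (fun x : ℝ × ℝ => c2 w b.yb b.yt x.2)
      (deriv (c2 w b.yb b.yt) x.2 • ContinuousLinearMap.snd ℝ ℝ ℝ) x :=
    h2.comp_hasFDerivAt x hasFDerivAt_snd
  have h5 := h3.mul h4
  have h6 : fderiv ℝ (ch b w) x = _ := h5.fderiv
  rw [h6]
  constructor
  · simp
    ring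
  · simp

theorem ch_grad {C : ℝ} (hC0 : 0 ≤ C) (hC : ∀ t, |deriv cu t| ≤ C) (b : Box) {w : ℝ} (hw : 0 < w)
    (x : ℝ × ℝ) : |fderiv ℝ (ch b w) x (1, 0)| ≤ 2 * C / w ∧
      |fderiv ℝ (ch b w) x (0, 1)| ≤ 2 * C / w := by
  have hpos : 0 ≤ 2 * C / w := by positivity
  rw [(ch_fderiv b w x).1, (ch_fderiv b w x).2, abs_mul, abs_mul, abs_of_nonneg (c2_nonneg _ _ _ _),
    abs_of_nonneg (c2_nonneg _ _ _ _)]
  constructor
  · calc _ ≤ 2 * C / w * 1 := mul_le_mul (c2_deriv hC hw _) (c2_le_one _ _ _ _) (c2_nonneg _ _ _ _) hpos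
      _ = _ := mul_one _
  · calc _ ≤ 1 * (2 * C / w) := mul_le_mul (c2_le_one _ _ _ _) (c2_deriv hC hw _) (abs_nonneg _) zero_le_one
      _ = _ := one_mul _

/-- The divergence of the cut flow. -/
theorem dvg_cut {χ φ₁ φ₂ : ℝ × ℝ → ℝ} (hχ : ContDiff ℝ ∞ χ) (h1 : ContDiff ℝ ∞ φ₁)
    (h2 : ContDiff ℝ ∞ φ₂) (x : ℝ × ℝ) :
    dvg (fun x => (1 - χ x) * φ₁ x) (fun x => (1 - χ x) * φ₂ x) x = (1 - χ x) * dvg φ₁ φ₂ x -
      (fderiv ℝ χ x (1, 0) * φ₁ x + fderiv ℝ χ x (0, 1) * φ₂ x) := by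
  have hχ' : HasFDerivAt χ (fderiv ℝ χ x) x := (hχ.differentiable (by simp) x).hasFDerivAt
  have h1' : HasFDerivAt φ₁ (fderiv ℝ φ₁ x) x := (h1.differentiable (by simp) x).hasFDerivAt
  have h2' : HasFDerivAt φ₂ (fderiv ℝ φ₂ x) x := (h2.differentiable (by simp) x).hasFDerivAt
  have a1 := ((hχ'.const_sub 1).mul h1').fderiv
  have a2 := ((hχ'.const_sub 1).mul h2').fderiv
  have e1 : fderiv ℝ (fun x => (1 - χ x) * φ₁ x) x = _ := a1
  have e2 : fderiv ℝ (fun x => (1 - χ x) * φ₂ x) x = _ := a2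
  simp only [dvg, e1, e2]
  simp
  ring

/-! ### Counting -/

theorem card_near {a h : ℝ} (hh : 0 ≤ h) (s : Finset ℤ) (hs : ∀ t ∈ s, |(t : ℝ) - a| ≤ h) :
    (s.card : ℝ) ≤ 2 * h + 1 := by
  have h1 : s ⊆ Finset.Icc ⌈a - h⌉ ⌊a + h⌋ := by
    intro t ht
    have := abs_le.1 (hs t ht)
    rw [Finset.mem_Icc, Int.ceil_le, Int.le_floor]
    constructor <;> linarith
  have h2 : (s.card : ℝ) ≤ ((Finset.Icc ⌈a - h⌉ ⌊a + h⌋).card : ℝ) := by
    exact_mod_cast Finset.card_le_card h1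
  refine h2.trans ?_
  rw [Int.card_Icc]
  have h3 : ((⌊a + h⌋ + 1 - ⌈a - h⌉).toNat : ℤ) = max (⌊a + h⌋ + 1 - ⌈a - h⌉) 0 :=
    Int.toNat_eq_max _
  have h4 : (((⌊a + h⌋ + 1 - ⌈a - h⌉).toNat : ℤ) : ℝ) = max ((⌊a + h⌋ : ℝ) + 1 - ⌈a - h⌉) 0 := by
    rw [h3]; push_cast; rfl
  have h5 : ((⌊a + h⌋ + 1 - ⌈a - h⌉).toNat : ℝ) = max ((⌊a + h⌋ : ℝ) + 1 - ⌈a - h⌉) 0 := by
    rw [← h4]; norm_cast
  rw [h5, max_le_iff]
  constructor
  · linarith [Int.floor_le (a + h), Int.le_ceil (a - h)]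
  · linarith

theorem card_near_div {a h : ℝ} (hh : 0 ≤ h) {L : ℤ} (hL : 1 ≤ L) (s : Finset ℤ)
    (hs : ∀ t ∈ s, |(t : ℝ) - a| ≤ h) : ((s.image fun t => t / L).card : ℝ) * L ≤ 2 * h + 2 * L := by
  have hLR : (1 : ℝ) ≤ L := by exact_mod_cast hL
  have hL0 : (0 : ℝ) < L := by linarith
  have h1 : ∀ t ∈ s.image fun t => t / L, |(t : ℝ) - (a / L - 1 / 2)| ≤ h / L + 1 / 2 := by
    intro t ht
    obtain ⟨v, hv, rfl⟩ := Finset.mem_image.1 ht
    have h2 := abs_le.1 (hs v hv)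
    have h3 : v / L * L ≤ v := Int.ediv_mul_le v (by omega)
    have h4 : v < (v / L + 1) * L := Int.lt_ediv_add_one_mul_self v (by omega)
    have h3' : ((v / L : ℤ) : ℝ) * L ≤ v := by exact_mod_cast h3
    have h4' : (v : ℝ) < (((v / L : ℤ) : ℝ) + 1) * L := by exact_mod_cast h4
    have e1 : a / L * L = a := by field_simp
    have e2 : h / L * L = h := by field_simp
    rw [abs_le]
    constructor
    · by_contra hc
      push Not at hc
      nlinarith
    · by_contra hc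
      push Not at hc
      nlinarith
  have h2 := card_near (by positivity) _ h1
  have e2 : h / L * L = h := by field_simp
  calc ((s.image fun t => t / L).card : ℝ) * L ≤ (2 * (h / L + 1 / 2) + 1) * L :=
        mul_le_mul_of_nonneg_right h2 hL0.le
    _ = 2 * (h / L * L) + 2 * L := by ring
    _ = _ := by rw [e2]

/-- A rectangle of squares. -/
structure InR (a1 h1 a2 h2 : ℝ) (s : Finset (ℤ × ℤ)) : Prop where
  f : ∀ v ∈ s, |(v.1 : ℝ) - a1| ≤ h1
  s : ∀ v ∈ s, |(v.2 : ℝ) - a2| ≤ h2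

theorem InR.card {a1 h1 a2 h2 : ℝ} {s : Finset (ℤ × ℤ)} (h : InR a1 h1 a2 h2 s) (k1 : 0 ≤ h1)
    (k2 : 0 ≤ h2) : (s.card : ℝ) ≤ (2 * h1 + 1) * (2 * h2 + 1) := by
  have e1 : s ⊆ (s.image Prod.fst) ×ˢ (s.image Prod.snd) := fun v hv =>
    Finset.mem_product.2 ⟨Finset.mem_image_of_mem _ hv, Finset.mem_image_of_mem _ hv⟩
  have e2 : (s.card : ℝ) ≤ ((s.image Prod.fst).card : ℝ) * ((s.image Prod.snd).card : ℝ) := by
    rw [← Nat.cast_mul, ← Finset.card_product]
    exact_mod_cast Finset.card_le_card e1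
  have e3 := card_near k1 (s.image Prod.fst) (by
    intro t ht
    obtain ⟨v, hv, rfl⟩ := Finset.mem_image.1 ht
    exact h.f v hv)
  have e4 := card_near k2 (s.image Prod.snd) (by
    intro t ht
    obtain ⟨v, hv, rfl⟩ := Finset.mem_image.1 ht
    exact h.s v hv)
  exact e2.trans (mul_le_mul e3 e4 (Nat.cast_nonneg _) (by linarith))

theorem InR.cel {a1 h1 a2 h2 : ℝ} {s : Finset (ℤ × ℤ)} (h : InR a1 h1 a2 h2 s) (k1 : 0 ≤ h1)
    (k2 : 0 ≤ h2) {L : ℤ} (hL : 1 ≤ L) :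
    ((cel s L).card : ℝ) * L ^ 2 ≤ (2 * h1 + 2 * L) * (2 * h2 + 2 * L) := by
  have hLR : (1 : ℝ) ≤ L := by exact_mod_cast hL
  have e1 : H638.L.cel s L ⊆ ((s.image Prod.fst).image fun t => t / L) ×ˢ
      ((s.image Prod.snd).image fun t => t / L) := by
    intro v hv
    obtain ⟨u, hu, rfl⟩ := Finset.mem_image.1 hv
    exact Finset.mem_product.2 ⟨Finset.mem_image_of_mem _ (Finset.mem_image_of_mem _ hu),
      Finset.mem_image_of_mem _ (Finset.mem_image_of_mem _ hu)⟩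
  have e2 : ((H638.L.cel s L).card : ℝ) ≤ (((s.image Prod.fst).image fun t => t / L).card : ℝ) *
      (((s.image Prod.snd).image fun t => t / L).card : ℝ) := by
    rw [← Nat.cast_mul, ← Finset.card_product]
    exact_mod_cast Finset.card_le_card e1
  have e3 := card_near_div k1 hL (s.image Prod.fst) (by
    intro t ht
    obtain ⟨v, hv, rfl⟩ := Finset.mem_image.1 ht
    exact h.f v hv)
  have e4 := card_near_div k2 hL (s.image Prod.snd) (by
    intro t ht
    obtain ⟨v, hv, rfl⟩ := Finset.mem_image.1 ht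
    exact h.s v hv)
  calc ((H638.L.cel s L).card : ℝ) * L ^ 2 ≤ (((s.image Prod.fst).image fun t => t / L).card : ℝ) *
      (((s.image Prod.snd).image fun t => t / L).card : ℝ) * L ^ 2 :=
        mul_le_mul_of_nonneg_right e2 (by positivity)
    _ = ((((s.image Prod.fst).image fun t => t / L).card : ℝ) * L) *
      ((((s.image Prod.snd).image fun t => t / L).card : ℝ) * L) := by ring
    _ ≤ _ := mul_le_mul e3 e4 (by positivity) (by linarith)

/-- The four strips. -/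
def Nr4 (b : Box) (N h : ℝ) (j : Fin 4) (v : ℤ × ℤ) : Prop :=
  match j with
  | 0 => |(v.1 : ℝ) - N * b.xl| ≤ h
  | 1 => |(v.1 : ℝ) - N * b.xr| ≤ h
  | 2 => |(v.2 : ℝ) - N * b.yb| ≤ h
  | 3 => |(v.2 : ℝ) - N * b.yt| ≤ h

open Classical in
/-- One strip. -/
noncomputable def St (b : Box) (N h M : ℝ) (j : Fin 4) : Finset (ℤ × ℤ) :=
  (Finset.Icc (-⌊M⌋) ⌊M⌋ ×ˢ Finset.Icc (-⌊M⌋) ⌊M⌋).filter fun v => Nr4 b N h j v

theorem mem_St {b : Box} {N h M : ℝ} {j : Fin 4} {v : ℤ × ℤ} :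
    v ∈ St b N h M j ↔ (|(v.1 : ℝ)| ≤ M ∧ |(v.2 : ℝ)| ≤ M) ∧ Nr4 b N h j v := by
  classical
  have key : ∀ t : ℤ, t ∈ Finset.Icc (-⌊M⌋) ⌊M⌋ ↔ |(t : ℝ)| ≤ M := by
    intro t
    rw [Finset.mem_Icc, abs_le, Int.le_floor, neg_le, Int.le_floor]
    push_cast
    constructor
    · rintro ⟨h1, h2⟩; exact ⟨by linarith, h2⟩
    · rintro ⟨h1, h2⟩; exact ⟨by linarith, h2⟩
  unfold St
  rw [Finset.mem_filter, Finset.mem_product, key, key]

/-- The union of the strips. -/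
noncomputable def T4 (b : Box) (N h M : ℝ) : Finset (ℤ × ℤ) := by
  classical
  exact Finset.univ.biUnion fun j : Fin 4 => St b N h M j

theorem mem_T4 {b : Box} {N h M : ℝ} {v : ℤ × ℤ} :
    v ∈ T4 b N h M ↔ ∃ j, v ∈ St b N h M j := by
  classical
  unfold T4
  simp

theorem St_inR {b : Box} {N h M : ℝ} (j : Fin 4) :
    (∃ a, InR a h 0 M (St b N h M j)) ∨ (∃ a, InR 0 M a h (St b N h M j)) := by
  fin_cases j
  · exact Or.inl ⟨N * b.xl, fun v hv => (mem_St.1 hv).2, fun v hv => by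
      rw [sub_zero]; exact (mem_St.1 hv).1.2⟩
  · exact Or.inl ⟨N * b.xr, fun v hv => (mem_St.1 hv).2, fun v hv => by
      rw [sub_zero]; exact (mem_St.1 hv).1.2⟩
  · exact Or.inr ⟨N * b.yb, fun v hv => by rw [sub_zero]; exact (mem_St.1 hv).1.1,
      fun v hv => (mem_St.1 hv).2⟩
  · exact Or.inr ⟨N * b.yt, fun v hv => by rw [sub_zero]; exact (mem_St.1 hv).1.1,
      fun v hv => (mem_St.1 hv).2⟩

theorem T4_cel {b : Box} {N h M : ℝ} (hh : 0 ≤ h) (hM : 0 ≤ M) {L : ℤ} (hL : 1 ≤ L) :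
    ((cel (T4 b N h M) L).card : ℝ) * L ^ 2 ≤ 4 * ((2 * h + 2 * L) * (2 * M + 2 * L)) := by
  classical
  have e1 : H638.L.cel (T4 b N h M) L = Finset.univ.biUnion fun j : Fin 4 =>
      H638.L.cel (St b N h M j) L := by
    unfold T4 H638.L.cel
    rw [Finset.biUnion_image]
  have e2 : ((H638.L.cel (T4 b N h M) L).card : ℝ) ≤
      ∑ j : Fin 4, ((H638.L.cel (St b N h M j) L).card : ℝ) := by
    rw [e1]
    exact_mod_cast Finset.card_biUnion_le
  calc ((H638.L.cel (T4 b N h M) L).card : ℝ) * L ^ 2 ≤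
        (∑ j : Fin 4, ((H638.L.cel (St b N h M j) L).card : ℝ)) * L ^ 2 :=
        mul_le_mul_of_nonneg_right e2 (by positivity)
    _ = ∑ j : Fin 4, ((H638.L.cel (St b N h M j) L).card : ℝ) * L ^ 2 := by rw [Finset.sum_mul]
    _ ≤ ∑ _j : Fin 4, (2 * h + 2 * L) * (2 * M + 2 * L) := by
        refine Finset.sum_le_sum fun j _ => ?_
        rcases St_inR (b := b) (N := N) (h := h) (M := M) j with ⟨a, ha⟩ | ⟨a, ha⟩
        · exact ha.cel hh hM hL
        · refine (ha.cel hM hh hL).trans (le_of_eq ?_)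
          ring
    _ = _ := by simp

theorem T4_ball {b : Box} {N h M : ℝ} (hh : 0 ≤ h) (x : ℤ × ℤ) {r : ℤ} (hr : 1 ≤ r) :
    (((T4 b N h M).filter fun v => nm (v - x) ≤ r).card : ℝ) ≤
      4 * ((2 * r + 1) * min (2 * r + 1 : ℝ) (2 * h + 1)) := by
  classical
  have hr0 : (0 : ℝ) ≤ r := by exact_mod_cast (by omega : 0 ≤ r)
  have e1 : (T4 b N h M).filter (fun v => nm (v - x) ≤ r) = Finset.univ.biUnion fun j : Fin 4 =>
      (St b N h M j).filter fun v => nm (v - x) ≤ r := by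
    unfold T4
    rw [Finset.filter_biUnion]
  have e2 : (((T4 b N h M).filter fun v => nm (v - x) ≤ r).card : ℝ) ≤
      ∑ j : Fin 4, (((St b N h M j).filter fun v => nm (v - x) ≤ r).card : ℝ) := by
    rw [e1]
    exact_mod_cast Finset.card_biUnion_le
  refine e2.trans ?_
  have key : ∀ j : Fin 4, (((St b N h M j).filter fun v => nm (v - x) ≤ r).card : ℝ) ≤
      (2 * r + 1) * min (2 * r + 1 : ℝ) (2 * h + 1) := by
    intro j
    have hb : ∀ v ∈ (St b N h M j).filter fun v => nm (v - x) ≤ r,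
        |(v.1 : ℝ) - x.1| ≤ r ∧ |(v.2 : ℝ) - x.2| ≤ r := by
      intro v hv
      have h1 := (Finset.mem_filter.1 hv).2
      simp only [nm, max_le_iff, Prod.fst_sub, Prod.snd_sub] at h1
      exact ⟨by exact_mod_cast h1.1, by exact_mod_cast h1.2⟩
    have hbox : (((St b N h M j).filter fun v => nm (v - x) ≤ r).card : ℝ) ≤
        (2 * r + 1) * (2 * r + 1) :=
      InR.card (a1 := x.1) (a2 := x.2) ⟨fun v hv => (hb v hv).1, fun v hv => (hb v hv).2⟩ hr0 hr0
    rcases St_inR (b := b) (N := N) (h := h) (M := M) j with ⟨a, ha⟩ | ⟨a, ha⟩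
    · have h2 : (((St b N h M j).filter fun v => nm (v - x) ≤ r).card : ℝ) ≤
          (2 * h + 1) * (2 * r + 1) :=
        InR.card (a1 := a) (a2 := x.2) ⟨fun v hv => ha.f v (Finset.mem_filter.1 hv).1,
          fun v hv => (hb v hv).2⟩ hh hr0
      rcases min_choice (2 * r + 1 : ℝ) (2 * h + 1) with h3 | h3 <;> rw [h3]
      · exact hbox
      · rw [mul_comm]; exact h2
    · have h2 : (((St b N h M j).filter fun v => nm (v - x) ≤ r).card : ℝ) ≤
          (2 * r + 1) * (2 * h + 1) :=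
        InR.card (a1 := x.1) (a2 := a) ⟨fun v hv => (hb v hv).1,
          fun v hv => ha.s v (Finset.mem_filter.1 hv).1⟩ hr0 hh
      rcases min_choice (2 * r + 1 : ℝ) (2 * h + 1) with h3 | h3 <;> rw [h3]
      · exact hbox
      · exact h2
  calc _ ≤ ∑ _j : Fin 4, (2 * r + 1) * min (2 * r + 1 : ℝ) (2 * h + 1) :=
        Finset.sum_le_sum fun j _ => key j
    _ = _ := by simp

/-! ### The statement -/

theorem lines_sub (b : Box) {w : ℝ} (hw : 0 < w) : b.lines ⊆ interior {x | ch b w x = 0} := by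
  have h1 : IsOpen {x : ℝ × ℝ | |x.1 - b.xl| < w ∨ |x.1 - b.xr| < w ∨ |x.2 - b.yb| < w ∨
      |x.2 - b.yt| < w} := by
    have a : ∀ (a : ℝ), IsOpen {x : ℝ × ℝ | |x.1 - a| < w} := fun a =>
      isOpen_lt (by fun_prop) continuous_const
    have a' : ∀ (a : ℝ), IsOpen {x : ℝ × ℝ | |x.2 - a| < w} := fun a =>
      isOpen_lt (by fun_prop) continuous_const
    exact (a b.xl).union ((a b.xr).union ((a' b.yb).union (a' b.yt)))
  have h2 : {x : ℝ × ℝ | |x.1 - b.xl| < w ∨ |x.1 - b.xr| < w ∨ |x.2 - b.yb| < w ∨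
      |x.2 - b.yt| < w} ⊆ {x | ch b w x = 0} := by
    rintro x (h | h | h | h)
    · show c2 w b.xl b.xr x.1 * c2 w b.yb b.yt x.2 = 0
      rw [c2_zero hw (Or.inl h.le), zero_mul]
    · show c2 w b.xl b.xr x.1 * c2 w b.yb b.yt x.2 = 0
      rw [c2_zero hw (Or.inr h.le), zero_mul]
    · show c2 w b.xl b.xr x.1 * c2 w b.yb b.yt x.2 = 0
      rw [c2_zero (t := x.2) hw (Or.inl h.le), mul_zero]
    · show c2 w b.xl b.xr x.1 * c2 w b.yb b.yt x.2 = 0
      rw [c2_zero (t := x.2) hw (Or.inr h.le), mul_zero]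
  refine Set.Subset.trans ?_ (interior_maximal h2 h1)
  rintro x (h | h | h | h)
  · left; rw [h, sub_self, abs_zero]; exact hw
  · right; right; right; rw [h.1, sub_self, abs_zero]; exact hw
  · right; left; rw [h.1, sub_self, abs_zero]; exact hw
  · right; right; left; rw [h.1, sub_self, abs_zero]; exact hw

theorem near_of_ch {b : Box} {w : ℝ} (hw : 0 < w) {x : ℝ × ℝ} (h : ch b w x ≠ 1) :
    |x.1 - b.xl| ≤ 2 * w ∨ |x.1 - b.xr| ≤ 2 * w ∨ |x.2 - b.yb| ≤ 2 * w ∨ |x.2 - b.yt| ≤ 2 * w := by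
  by_contra hc
  push Not at hc
  apply h
  show c2 w b.xl b.xr x.1 * c2 w b.yb b.yt x.2 = 1
  rw [c2_one hw hc.1.le hc.2.1.le, c2_one hw hc.2.2.1.le hc.2.2.2.le, one_mul]

theorem hdv_pos (e : Ed) : ((hdv e).1 = (epos e).1 ∨ (hdv e).1 = (epos e).1 + 1) ∧
    ((hdv e).2 = (epos e).2 ∨ (hdv e).2 = (epos e).2 + 1) := by
  rcases e with ⟨x, y⟩ | ⟨x, y⟩ <;> by_cases h : Even (x + y) <;> simp [hdv, epos, h]

/-- **The cut-off along the pinwheel.** -/
theorem s_strip : S_strip := by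
  intro b φ₁ φ₂ h1 h2 s1 s2
  obtain ⟨M1, hM1, hb1⟩ := exists_bd h1.continuous s1
  obtain ⟨M2, hM2, hb2⟩ := exists_bd h2.continuous s2
  obtain ⟨M3, hM3, hb3⟩ := exists_bd (cont_dvg h1 h2) (hcs_dvg s1 s2)
  obtain ⟨C, hC0, hC⟩ := cu_deriv_bd
  obtain ⟨R, hR⟩ := (s1.isCompact.union s2.isCompact).isBounded.subset_closedBall (0 : ℝ × ℝ)
  set Rm : ℝ := |R| + 1 with hRm
  have hRm0 : 1 ≤ Rm := by rw [hRm]; linarith [abs_nonneg R]
  refine ⟨M1 + M2 + M3 + 2 * C * (M1 + M2) + 1, 4 * (8 * (2 * Rm + 2)) + 84, by positivity,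
    by positivity, fun w hw hw1 => ?_⟩
  refine ⟨ch b w, contDiff_ch b w, fun x => ⟨mul_nonneg (c2_nonneg _ _ _ _) (c2_nonneg _ _ _ _),
    mul_le_one₀ (c2_le_one _ _ _ _) (c2_nonneg _ _ _ _) (c2_le_one _ _ _ _)⟩, lines_sub b hw,
    fun x hx => ?_, fun n hn => ?_⟩
  · rcases near_of_ch hw hx with h | h | h | h
    · exact Or.inl (by linarith)
    · exact Or.inr (Or.inl (by linarith))
    · exact Or.inr (Or.inr (Or.inl (by linarith)))
    · exact Or.inr (Or.inr (Or.inr (by linarith)))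
  have hn0 : (0 : ℝ) < n := by
    by_contra hc
    have : (n : ℝ) = 0 := le_antisymm (not_lt.1 hc) (Nat.cast_nonneg n)
    rw [this, mul_zero] at hn
    linarith
  have hn1 : (1 : ℝ) ≤ n := by nlinarith
  have hδ : (0 : ℝ) < 1 / n := by positivity
  have c0 : ∀ x, 0 ≤ ch b w x := fun x => mul_nonneg (c2_nonneg _ _ _ _) (c2_nonneg _ _ _ _)
  have c1 : ∀ x, ch b w x ≤ 1 := fun x =>
    mul_le_one₀ (c2_le_one _ _ _ _) (c2_nonneg _ _ _ _) (c2_le_one _ _ _ _)
  have hcut : ∀ x, |1 - ch b w x| ≤ 1 := fun x => by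
    rw [abs_le]; constructor <;> linarith [c0 x, c1 x]
  have g1 : ∀ x, |(1 - ch b w x) * φ₁ x| ≤ M1 + M2 + M3 + 2 * C * (M1 + M2) + 1 := by
    intro x
    rw [abs_mul]
    have := mul_le_mul (hcut x) (hb1 x) (abs_nonneg _) zero_le_one
    have : 0 ≤ 2 * C * (M1 + M2) := by positivity
    linarith
  have g2 : ∀ x, |(1 - ch b w x) * φ₂ x| ≤ M1 + M2 + M3 + 2 * C * (M1 + M2) + 1 := by
    intro x
    rw [abs_mul]
    have := mul_le_mul (hcut x) (hb2 x) (abs_nonneg _) zero_le_one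
    have : 0 ≤ 2 * C * (M1 + M2) := by positivity
    linarith
  have d1 : ContDiff ℝ ∞ fun x => (1 - ch b w x) * φ₁ x :=
    (contDiff_const.sub (contDiff_ch b w)).mul h1
  have d2 : ContDiff ℝ ∞ fun x => (1 - ch b w x) * φ₂ x :=
    (contDiff_const.sub (contDiff_ch b w)).mul h2
  -- a point of the support
  have hpt : ∀ e, fl (fun x => (1 - ch b w x) * φ₁ x) (fun x => (1 - ch b w x) * φ₂ x) (1 / n) e ≠ 0 →
      ∀ v : ℤ × ℤ, ((v.1 = (epos e).1 ∨ v.1 = (epos e).1 + 1) ∧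
        (v.2 = (epos e).2 ∨ v.2 = (epos e).2 + 1)) → v ∈ T4 b n (3 * (w * n)) (Rm * n) := by
    intro e he v hv
    obtain ⟨x, hx, a1, a2, a3, a4⟩ := fl_ne hδ he
    rw [one_div_mul_eq_div, div_le_iff₀ hn0] at a1 a3
    rw [one_div_mul_eq_div, le_div_iff₀ hn0] at a2 a4
    have hch : ch b w x ≠ 1 := by
      intro h
      rw [h, sub_self, zero_mul, zero_mul] at hx
      simp at hx
    have hxs : x ∈ tsupport φ₁ ∪ tsupport φ₂ := by
      rcases hx with h | h
      · exact Or.inl (subset_tsupport _ (right_ne_zero_of_mul h))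
      · exact Or.inr (subset_tsupport _ (right_ne_zero_of_mul h))
    have hxR := hR hxs
    rw [mem_closedBall_zero_iff, Prod.norm_def, sup_le_iff, Real.norm_eq_abs, Real.norm_eq_abs] at hxR
    have hv1 : |(v.1 : ℝ) - n * x.1| ≤ 1 := by
      rw [abs_le]
      rcases hv.1 with h | h <;> rw [h] <;> push_cast <;> constructor <;> linarith
    have hv2 : |(v.2 : ℝ) - n * x.2| ≤ 1 := by
      rw [abs_le]
      rcases hv.2 with h | h <;> rw [h] <;> push_cast <;> constructor <;> linarith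
    have hbd : ∀ (t y : ℝ), |t - n * y| ≤ 1 → |y| ≤ R → |t| ≤ Rm * n := by
      intro t y ht hy
      have k1 : |n * y| ≤ n * |R| := by
        rw [abs_mul, abs_of_pos hn0]
        exact mul_le_mul_of_nonneg_left (hy.trans (le_abs_self R)) hn0.le
      have k2 : |t| ≤ |t - n * y| + |n * y| := by
        have := abs_add_le (t - n * y) (n * y)
        simpa using this
      rw [hRm]
      nlinarith
    have hst : ∀ (t y a : ℝ), |t - n * y| ≤ 1 → |y - a| ≤ 2 * w → |t - n * a| ≤ 3 * (w * n) := by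
      intro t y a ht hy
      have k1 : |n * (y - a)| ≤ n * (2 * w) := by
        rw [abs_mul, abs_of_pos hn0]
        exact mul_le_mul_of_nonneg_left hy hn0.le
      have k2 : |t - n * a| ≤ |t - n * y| + |n * (y - a)| := by
        have := abs_add_le (t - n * y) (n * (y - a))
        rwa [show t - n * y + n * (y - a) = t - n * a by ring] at this
      nlinarith
    have hM' := (⟨hbd _ _ hv1 hxR.1, hbd _ _ hv2 hxR.2⟩ :
      |(v.1 : ℝ)| ≤ Rm * n ∧ |(v.2 : ℝ)| ≤ Rm * n)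
    rw [mem_T4]
    rcases near_of_ch hw hch with h | h | h | h
    · exact ⟨0, mem_St.2 ⟨hM', hst _ _ _ hv1 h⟩⟩
    · exact ⟨1, mem_St.2 ⟨hM', hst _ _ _ hv1 h⟩⟩
    · exact ⟨2, mem_St.2 ⟨hM', hst _ _ _ hv2 h⟩⟩
    · exact ⟨3, mem_St.2 ⟨hM', hst _ _ _ hv2 h⟩⟩
  refine ⟨T4 b n (3 * (w * n)) (Rm * n), fun e he => hpt e he _ (hdv_pos e), fun z hz => ?_,
    fun e => ?_, fun z => ?_, fun L hL hLn => ?_, fun x r hr => ?_⟩
  · -- the sites
    by_contra hc
    apply hz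
    have k : ∀ e : Ed, ((z.1 = (epos e).1 ∨ z.1 = (epos e).1 + 1) ∧
        (z.2 = (epos e).2 ∨ z.2 = (epos e).2 + 1)) →
        fl (fun x => (1 - ch b w x) * φ₁ x) (fun x => (1 - ch b w x) * φ₂ x) (1 / n) e = 0 := by
      intro e he
      by_contra h
      exact hc (hpt e h z he)
    unfold dv
    rw [k (Sum.inl (z.1 - 1, z.2 - 1)) (by simp [epos]), k (Sum.inl (z.1 - 1, z.2)) (by simp [epos]),
      k (Sum.inr (z.1, z.2 - 1)) (by simp [epos]), k (Sum.inr (z.1 - 1, z.2 - 1)) (by simp [epos])]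
    ring
  · have := fl_le g1 g2 hδ e
    rwa [mul_one_div] at this
  · rw [dv_fl d1 d2 hδ]
    have hF : ∀ x, |dvg (fun x => (1 - ch b w x) * φ₁ x) (fun x => (1 - ch b w x) * φ₂ x) x| ≤
        (M1 + M2 + M3 + 2 * C * (M1 + M2) + 1) / w := by
      intro x
      rw [dvg_cut (contDiff_ch b w) h1 h2]
      have k1 := ch_grad hC0 hC b hw x
      have k2 : |(1 - ch b w x) * dvg φ₁ φ₂ x| ≤ M3 := by
        rw [abs_mul]
        have := mul_le_mul (hcut x) (hb3 x) (abs_nonneg _) zero_le_one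
        linarith
      have hq : 0 ≤ 2 * C / w := by positivity
      have k3 : |fderiv ℝ (ch b w) x (1, 0) * φ₁ x| ≤ 2 * C / w * M1 := by
        rw [abs_mul]
        exact mul_le_mul k1.1 (hb1 x) (abs_nonneg _) hq
      have k4 : |fderiv ℝ (ch b w) x (0, 1) * φ₂ x| ≤ 2 * C / w * M2 := by
        rw [abs_mul]
        exact mul_le_mul k1.2 (hb2 x) (abs_nonneg _) hq
      have k5 : |(1 - ch b w x) * dvg φ₁ φ₂ x -
          (fderiv ℝ (ch b w) x (1, 0) * φ₁ x + fderiv ℝ (ch b w) x (0, 1) * φ₂ x)| ≤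
          M3 + (2 * C / w * M1 + 2 * C / w * M2) := by
        refine (abs_sub _ _).trans (add_le_add k2 ((abs_add_le _ _).trans (add_le_add k3 k4)))
      refine k5.trans ?_
      rw [le_div_iff₀ hw]
      have e1 : 2 * C / w * w = 2 * C := by field_simp
      have e2 : (M3 + (2 * C / w * M1 + 2 * C / w * M2)) * w =
          M3 * w + (2 * C / w * w) * (M1 + M2) := by ring
      rw [e2, e1]
      nlinarith
    have := cm_abs_le hF hδ z
    refine this.trans (le_of_eq ?_)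
    field_simp
  · have hLR : (1 : ℝ) ≤ L := by exact_mod_cast hL
    have hwn : 0 ≤ w * n := by positivity
    have k := T4_cel (b := b) (N := n) (h := 3 * (w * n)) (M := Rm * n) (by positivity)
      (by positivity) hL
    refine k.trans ?_
    have k1 : 2 * (3 * (w * n)) + 2 * (L : ℝ) ≤ 8 * (w * n + L) := by linarith
    have k2 : 2 * (Rm * n) + 2 * (L : ℝ) ≤ (2 * Rm + 2) * n := by linarith
    calc 4 * ((2 * (3 * (w * n)) + 2 * (L : ℝ)) * (2 * (Rm * n) + 2 * L)) ≤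
          4 * ((8 * (w * n + L)) * ((2 * Rm + 2) * n)) :=
          mul_le_mul_of_nonneg_left (mul_le_mul k1 k2 (by positivity) (by positivity)) (by norm_num)
      _ = 4 * (8 * (2 * Rm + 2)) * n * (w * n + L) := by ring
      _ ≤ _ := by
        refine mul_le_mul_of_nonneg_right (mul_le_mul_of_nonneg_right ?_ hn0.le) (by positivity)
        linarith
  · have hr1 : (1 : ℝ) ≤ r := by exact_mod_cast hr
    have k := T4_ball (b := b) (N := n) (h := 3 * (w * n)) (M := Rm * n) (by positivity) x hr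
    refine k.trans ?_
    have k1 : (2 * (r : ℝ) + 1) ≤ 3 * r := by linarith
    have k2 : min (2 * (r : ℝ) + 1) (2 * (3 * (w * n)) + 1) ≤ 7 * min (r : ℝ) (w * n) := by
      rcases min_choice (r : ℝ) (w * n) with h | h <;> rw [h]
      · exact (min_le_left _ _).trans (by linarith)
      · exact (min_le_right _ _).trans (by linarith)
    have hmin : 0 ≤ min (r : ℝ) (w * n) := le_min (by linarith) (by positivity)
    calc 4 * ((2 * (r : ℝ) + 1) * min (2 * (r : ℝ) + 1) (2 * (3 * (w * n)) + 1)) ≤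
          4 * ((3 * r) * (7 * min (r : ℝ) (w * n))) := by
          refine mul_le_mul_of_nonneg_left (mul_le_mul k1 k2 ?_ (by positivity)) (by norm_num)
          exact le_min (by positivity) (by positivity)
      _ = 84 * r * min (r : ℝ) (w * n) := by ring
      _ ≤ _ := by
        refine mul_le_mul_of_nonneg_right (mul_le_mul_of_nonneg_right ?_ (by positivity)) hmin
        have : 0 ≤ 4 * (8 * (2 * Rm + 2)) := by positivity
        linarith

end Vale.Agent.P167.H192.LY
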